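import Vale.Agent.Lib.P224.Main

namespace Vale.Agent.Results.P224.CliffordMin

open Vale.Agent.Lib.P224

/-- For all integers `1 ≤ k < m`: the balanced minimal Clifford product `C_{⌊m/2⌋, m - ⌊m/2⌋}`
has the least volume among the minimal Clifford products `C_{k, m-k}` in `S^(m+1)`, and each
`C_{k, m-k}` has volume less than twice the volume of the unit `m`-sphere. -/
theorem result :
    ∀ m k : ℕ, 1 ≤ k → k < m →
      cliffordVol m (m / 2) ≤ cliffordVol m k ∧ cliffordVol m k < 2 * sphereVol m :=
  fun m k hk1 hk => clifford_main m k hk1 hk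

end Vale.Agent.Results.P224.CliffordMin
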